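import Vale.Agent.P254j.JoinAff
import Vale.Agent.P254j.Prod
import Vale.Agent.P254.Affine
import Vale.Agent.P254.Main

open MeasureTheory Set
open scoped Pointwise

namespace Vale.Agent.P254j

theorem body_iff {n : ℕ} {K : Set (Fin n → ℝ)} : IsConvexBody K ↔ IsBody K := Iff.rfl

theorem iso_eq {n : ℕ} (K : Set (Fin n → ℝ)) : P254.isoConst K = isoConst K := by
  have hcen : ∀ i, P254.centroid K i = bar K i := by
    intro i
    unfold P254.centroid bar
    rw [real_vol, div_eq_inv_mul]
  have hcov : P254.cov K = Cov K := by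
    ext i j
    simp only [P254.cov, Cov, Matrix.of_apply, hcen]
    rw [real_vol, div_eq_inv_mul]
  unfold P254.isoConst isoConst
  rw [hcov, real_vol, Fintype.card_fin]

theorem simp_eq (n : ℕ) : P254.simplex n = stdSimp n := rfl

theorem iso_std_pos {n : ℕ} : 0 < isoConst (stdSimp n) := by
  unfold isoConst
  apply Real.rpow_pos_of_pos
  have := Fk_simplex n
  unfold Fk at this
  rw [this]
  exact s_pos n

/-- the normalised functional -/
theorem phi_eq {n : ℕ} {K : Set (Fin n → ℝ)} (hK : IsBody K) :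
    (isoConst K / isoConst (stdSimp n)) ^ (2 * n) = Fk K / s n := by
  rcases Nat.eq_zero_or_pos n with h | h
  · subst h
    have : K = Set.univ := Subsingleton.eq_univ_of_nonempty (hK.2.2.mono interior_subset)
    rw [this, Fk_point, s_zero]
    simp
  · rw [div_pow, std_pow h]
    have := iso_pow hK (by simpa using h)
    rw [Fintype.card_fin] at this
    rw [this]

/-- index equivalence for joins -/
noncomputable def je (m n : ℕ) : Unit ⊕ (Fin m ⊕ Fin n) ≃ Fin (m + n + 1) :=
  Equiv.ofBijective (Sum.elim (fun _ => Fin.last (m + n))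
    (Sum.elim (fun i => Fin.castSucc (Fin.castAdd n i)) (fun j => Fin.castSucc (Fin.natAdd m j)))) (by
    rw [Fintype.bijective_iff_injective_and_card]
    refine ⟨?_, by simp; ring⟩
    rintro (u | i | j) (u' | i' | j') h
    · rfl
    · exfalso
      have := congrArg Fin.val h
      simp at this
      omega
    · exfalso
      have := congrArg Fin.val h
      simp at this
      omega
    · exfalso
      have := congrArg Fin.val h
      simp at this
      omega
    · have := congrArg Fin.val h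
      simp at this
      rw [Fin.ext this]
    · exfalso
      have := congrArg Fin.val h
      simp at this
      omega
    · exfalso
      have := congrArg Fin.val h
      simp at this
      omega
    · exfalso
      have := congrArg Fin.val h
      simp at this
      omega
    · have := congrArg Fin.val h
      simp at this
      rw [Fin.ext this])

theorem joinBody_eq {m n : ℕ} (K : Set (Fin m → ℝ)) (L : Set (Fin n → ℝ)) :
    joinBody K L = (fun z : Fin (m + n + 1) → ℝ => fun i => z (je m n i)) ⁻¹' (join K L) := by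
  rw [← Join_eq]
  rfl

theorem joinBody_body {m n : ℕ} {K : Set (Fin m → ℝ)} {L : Set (Fin n → ℝ)} (hK : IsBody K)
    (hL : IsBody L) : IsBody (joinBody K L) := by
  rw [joinBody_eq]
  exact (reindex' (je m n) (join_body hK hL)).1

theorem Fk_joinBody_centred {m n : ℕ} {K : Set (Fin m → ℝ)} {L : Set (Fin n → ℝ)} (hK : IsBody K)
    (hL : IsBody L) (cK : ∀ i, ∫ x in K, x i = 0) (cL : ∀ j, ∫ x in L, x j = 0) :
    Fk (joinBody K L) / s (m + n + 1) = (Fk K / s m) * (Fk L / s n) := by
  rw [joinBody_eq, (reindex' (je m n) (join_body hK hL)).2]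
  have h := Fk_join hK hL cK cL
  simpa only [Fintype.card_fin] using h

theorem real_ne {n : ℕ} {K : Set (Fin n → ℝ)} (hK : IsBody K) : volume.real K ≠ 0 := by
  rw [real_vol]; exact (vol_pos hK).ne'

theorem iso_aff {n : ℕ} {K : Set (Fin n → ℝ)} (hK : IsBody K)
    (T : (Fin n → ℝ) ≃ᵃ[ℝ] (Fin n → ℝ)) : isoConst (T '' K) = isoConst K := by
  rw [← iso_eq, ← iso_eq]
  exact P254.isoConst_affine hK.2.1 (real_ne hK) T

theorem trans_image {n : ℕ} (K : Set (Fin n → ℝ)) (b : Fin n → ℝ) :
    (fun x => x + b) ⁻¹' K = (AffineEquiv.constVAdd ℝ (Fin n → ℝ) (-b)) '' K := by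
  ext x
  simp only [Set.mem_preimage, Set.mem_image, AffineEquiv.constVAdd_apply, vadd_eq_add]
  constructor
  · intro h
    exact ⟨x + b, h, by simp⟩
  · rintro ⟨y, hy, rfl⟩
    simpa using hy

/-- exact multiplicativity under joins -/
theorem phi_join {m n : ℕ} {K : Set (Fin m → ℝ)} {L : Set (Fin n → ℝ)} (hK : IsBody K)
    (hL : IsBody L) :
    (isoConst (joinBody K L) / isoConst (stdSimp (m + n + 1))) ^ (2 * (m + n + 1)) =
      (isoConst K / isoConst (stdSimp m)) ^ (2 * m) * (isoConst L / isoConst (stdSimp n)) ^ (2 * n) := by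
  obtain ⟨hK', eK, cK⟩ := centre' hK
  obtain ⟨hL', eL, cL⟩ := centre' hL
  have h1 := Fk_joinBody_centred hK' hL' cK cL
  rw [eK, eL] at h1
  rw [phi_eq hK, phi_eq hL, ← h1, ← phi_eq (joinBody_body hK' hL')]
  congr 2
  rw [trans_image, trans_image, joinBody_image, iso_aff (joinBody_body hK hL)]

theorem prodBody_eq {m n : ℕ} (K : Set (Fin m → ℝ)) (L : Set (Fin n → ℝ)) :
    prodBody K L = (fun z : Fin (m + n) → ℝ => fun i => z (finSumFinEquiv i)) ⁻¹' (Prd K L) := rfl

theorem prodBody_body {m n : ℕ} {K : Set (Fin m → ℝ)} {L : Set (Fin n → ℝ)} (hK : IsBody K)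
    (hL : IsBody L) : IsBody (prodBody K L) := by
  rw [prodBody_eq]
  exact (reindex' finSumFinEquiv (Prd_body hK hL)).1

theorem Fk_prodBody {m n : ℕ} {K : Set (Fin m → ℝ)} {L : Set (Fin n → ℝ)} (hK : IsBody K)
    (hL : IsBody L) : Fk (prodBody K L) = Fk K * Fk L := by
  rw [prodBody_eq, (reindex' finSumFinEquiv (Prd_body hK hL)).2, Fk_Prd hK hL]

/-- products are strict -/
theorem prod_lt {m n : ℕ} (hm : 0 < m) (hn : 0 < n) {K : Set (Fin m → ℝ)} {L : Set (Fin n → ℝ)}
    (hK : IsBody K) (hL : IsBody L) (h1 : isoConst K ≤ isoConst (stdSimp m))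
    (h2 : isoConst L ≤ isoConst (stdSimp n)) :
    isoConst (prodBody K L) < isoConst (stdSimp (m + n)) := by
  rw [lt_iff_one (prodBody_body hK hL) (by omega) (by simp), Fk_prodBody hK hL]
  rw [le_iff_one hK hm (by simp)] at h1
  rw [le_iff_one hL hn (by simp)] at h2
  exact lt_of_le_of_lt (mul_le_mul h1 h2 (Fk_nonneg hL) (s_pos m).le) (s_mul_lt m n hm hn)

theorem join_le {m n : ℕ} (hm : 0 < m) (hn : 0 < n) {K : Set (Fin m → ℝ)} {L : Set (Fin n → ℝ)}
    (hK : IsBody K) (hL : IsBody L) (h1 : isoConst K ≤ isoConst (stdSimp m))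
    (h2 : isoConst L ≤ isoConst (stdSimp n)) :
    isoConst (joinBody K L) ≤ isoConst (stdSimp (m + n + 1)) := by
  have h := phi_join hK hL
  rw [phi_eq hK, phi_eq hL, phi_eq (joinBody_body hK hL)] at h
  rw [le_iff_one hK hm (by simp)] at h1
  rw [le_iff_one hL hn (by simp)] at h2
  rw [le_iff_one (joinBody_body hK hL) (by omega) (by simp), ← div_le_one (s_pos _), h]
  exact mul_le_one₀ ((div_le_one (s_pos _)).2 h1) (div_nonneg (Fk_nonneg hL) (s_pos _).le)
    ((div_le_one (s_pos _)).2 h2)

theorem join_lt_left {m n : ℕ} (hm : 0 < m) (hn : 0 < n) {K : Set (Fin m → ℝ)}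
    {L : Set (Fin n → ℝ)} (hK : IsBody K) (hL : IsBody L)
    (h1 : isoConst K < isoConst (stdSimp m)) (h2 : isoConst L ≤ isoConst (stdSimp n)) :
    isoConst (joinBody K L) < isoConst (stdSimp (m + n + 1)) := by
  have h := phi_join hK hL
  rw [phi_eq hK, phi_eq hL, phi_eq (joinBody_body hK hL)] at h
  rw [lt_iff_one hK hm (by simp)] at h1
  rw [le_iff_one hL hn (by simp)] at h2
  rw [lt_iff_one (joinBody_body hK hL) (by omega) (by simp), ← div_lt_one (s_pos _), h]
  exact mul_lt_one_of_nonneg_of_lt_one_left (div_nonneg (Fk_nonneg hK) (s_pos _).le)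
    ((div_lt_one (s_pos _)).2 h1) ((div_le_one (s_pos _)).2 h2)

theorem join_lt_right {m n : ℕ} (hm : 0 < m) (hn : 0 < n) {K : Set (Fin m → ℝ)}
    {L : Set (Fin n → ℝ)} (hK : IsBody K) (hL : IsBody L)
    (h1 : isoConst K ≤ isoConst (stdSimp m)) (h2 : isoConst L < isoConst (stdSimp n)) :
    isoConst (joinBody K L) < isoConst (stdSimp (m + n + 1)) := by
  have h := phi_join hK hL
  rw [phi_eq hK, phi_eq hL, phi_eq (joinBody_body hK hL)] at h
  rw [le_iff_one hK hm (by simp)] at h1
  rw [lt_iff_one hL hn (by simp)] at h2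
  rw [lt_iff_one (joinBody_body hK hL) (by omega) (by simp), ← div_lt_one (s_pos _), h]
  exact mul_lt_one_of_nonneg_of_lt_one_right ((div_le_one (s_pos _)).2 h1)
    (div_nonneg (Fk_nonneg hL) (s_pos _).le) ((div_lt_one (s_pos _)).2 h2)

end Vale.Agent.P254j
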