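import Vale.Agent.P254j.FSum2

open MeasureTheory Set

namespace Vale.Agent.P254j

/-- a convex body with centroid `0` contains `0` in its interior -/
theorem zero_mem {n : ℕ} {K : Set (Fin n → ℝ)} (hK : IsBody K)
    (c : ∀ i, P254.centroid K i = 0) : (0 : Fin n → ℝ) ∈ interior K := by
  by_contra h
  obtain ⟨f, hf⟩ := geometric_hahn_banach_open_point hK.1.interior isOpen_interior h
  simp only [map_zero] at hf
  have cK : ∀ i, ∫ x in K, x i = 0 := by
    intro i
    have := c i
    unfold P254.centroid at this
    rw [div_eq_zero_iff] at this
    exact this.resolve_right (real_ne hK)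
  have hint : ∀ i, IntegrableOn (fun x : Fin n → ℝ => x i) K := fun i =>
    (continuous_apply i).continuousOn.integrableOn_compact hK.2.1
  have hfe : ∀ x, f x = ∑ i, f (Pi.single i 1) * x i := by
    intro v
    conv_lhs => rw [← Finset.univ_sum_single v]
    rw [map_sum]
    refine Finset.sum_congr rfl fun l _ => ?_
    have : (Pi.single l (v l) : Fin n → ℝ) = v l • Pi.single l (1 : ℝ) := by
      rw [← Pi.single_smul]; simp
    rw [this, map_smul, smul_eq_mul, mul_comm]
  have h0 : ∫ x in K, -f x = 0 := by
    have e : ∫ x in K, f x = ∫ x in K, ∑ i, f (Pi.single i 1) * x i :=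
      integral_congr_ae (Filter.Eventually.of_forall hfe)
    rw [integral_neg, e, integral_finsetSum _ (fun i _ => (hint i).const_mul _)]
    simp [integral_const_mul, cK]
  have hle : ∀ x ∈ K, f x ≤ 0 := by
    intro x hx
    have hx' : x ∈ closure (interior K) := by
      rw [hK.1.closure_interior_eq_closure_of_nonempty_interior hK.2.2]
      exact subset_closure hx
    have hc : IsClosed {x | f x ≤ 0} := isClosed_le f.continuous continuous_const
    exact closure_minimal (fun y hy => (hf y hy).le) hc hx'
  have hnn : 0 ≤ᵐ[volume.restrict K] fun x => -f x :=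
    (ae_restrict_iff' hK.2.1.measurableSet).2 (Filter.Eventually.of_forall fun x hx => by
      have := hle x hx
      simpa using this)
  have hi : IntegrableOn (fun x => -f x) K :=
    f.continuous.neg.continuousOn.integrableOn_compact hK.2.1
  have hpos : 0 < ∫ x in K, -f x := by
    rw [setIntegral_pos_iff_support_of_nonneg_ae hnn hi]
    refine lt_of_lt_of_le (isOpen_interior.measure_pos volume hK.2.2) (measure_mono ?_)
    intro x hx
    refine ⟨?_, interior_subset hx⟩
    simp only [Function.mem_support, ne_eq, neg_eq_zero]
    exact (hf x hx).ne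
  exact hpos.ne' h0

end Vale.Agent.P254j
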