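import Vale.Agent.P254j.SimpFacts

open MeasureTheory Set
open scoped Pointwise

namespace Vale.Agent.P254j

variable {ι κ : Type} [Fintype ι] [Fintype κ]

/-- membership in dilates through the gauge -/
theorem mem_smul_iff {K : Set (ι → ℝ)} (hK : IsBody K) (h0 : (0 : ι → ℝ) ∈ interior K) {s : ℝ}
    (hs : 0 ≤ s) (x : ι → ℝ) : x ∈ s • K ↔ gauge K x ≤ s := by
  have hn : K ∈ nhds (0 : ι → ℝ) := mem_interior_iff_mem_nhds.1 h0
  have habs : Absorbent ℝ K := absorbent_nhds_zero hn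
  have hbd : Bornology.IsVonNBounded ℝ K :=
    (NormedSpace.isVonNBounded_iff ℝ).2 hK.2.1.isBounded
  rcases eq_or_lt_of_le hs with h | h
  · subst h
    constructor
    · rintro ⟨y, _, rfl⟩
      simp
    · intro hg
      have hx : x = 0 := by
        by_contra hne
        have := (gauge_pos habs hbd).2 hne
        linarith
      rw [hx]
      exact ⟨0, interior_subset h0, by simp⟩
  · rw [Set.mem_smul_set_iff_inv_smul_mem₀ h.ne']
    have h1 := gauge_le_one_iff_mem_closure (x := s⁻¹ • x) hK.1 hn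
    rw [hK.2.1.isClosed.closure_eq] at h1
    rw [← h1, gauge_smul_of_nonneg (inv_nonneg.2 hs), smul_eq_mul, inv_mul_le_iff₀ h, mul_one]

/-- the free sum in product coordinates -/
def DD (K : Set (ι → ℝ)) (L : Set (κ → ℝ)) : Set ((ι → ℝ) × (κ → ℝ)) :=
  {w | ∃ t ∈ Icc (0:ℝ) 1, w.1 ∈ (1 - t) • K ∧ w.2 ∈ t • L}

section
variable {K : Set (ι → ℝ)} {L : Set (κ → ℝ)}

theorem mem_DD (hK : IsBody K) (hL : IsBody L) (h0 : (0 : ι → ℝ) ∈ interior K)
    (h0' : (0 : κ → ℝ) ∈ interior L) (w : (ι → ℝ) × (κ → ℝ)) :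
    w ∈ DD K L ↔ gauge K w.1 + gauge L w.2 ≤ 1 := by
  constructor
  · rintro ⟨t, ht, h1, h2⟩
    rw [mem_smul_iff hK h0 (by linarith [ht.2])] at h1
    rw [mem_smul_iff hL h0' ht.1] at h2
    linarith
  · intro h
    have g1 := gauge_nonneg (s := K) w.1
    have g2 := gauge_nonneg (s := L) w.2
    refine ⟨gauge L w.2, ⟨g2, by linarith⟩, ?_, ?_⟩
    · rw [mem_smul_iff hK h0 (by linarith)]; linarith
    · rw [mem_smul_iff hL h0' g2]

theorem mem_smul_DD (hK : IsBody K) (hL : IsBody L) (h0 : (0 : ι → ℝ) ∈ interior K)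
    (h0' : (0 : κ → ℝ) ∈ interior L) {r : ℝ} (hr : 0 ≤ r) (w : (ι → ℝ) × (κ → ℝ)) :
    w ∈ r • DD K L ↔ gauge K w.1 + gauge L w.2 ≤ r := by
  have g1 := gauge_nonneg (s := K) w.1
  have g2 := gauge_nonneg (s := L) w.2
  rcases eq_or_lt_of_le hr with h | h
  · subst h
    constructor
    · rintro ⟨y, _, rfl⟩
      simp
    · intro hg
      have e1 : w.1 ∈ (0:ℝ) • K := (mem_smul_iff hK h0 le_rfl _).2 (by linarith)
      have e2 : w.2 ∈ (0:ℝ) • L := (mem_smul_iff hL h0' le_rfl _).2 (by linarith)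
      obtain ⟨x, _, hx⟩ := e1
      obtain ⟨y, _, hy⟩ := e2
      refine ⟨0, ?_, ?_⟩
      · rw [mem_DD hK hL h0 h0']; simp
      · ext k
        · simp [← hx]
        · simp [← hy]
  · rw [Set.mem_smul_set_iff_inv_smul_mem₀ h.ne', mem_DD hK hL h0 h0']
    simp only [Prod.smul_fst, Prod.smul_snd]
    rw [gauge_smul_of_nonneg (inv_nonneg.2 hr), gauge_smul_of_nonneg (inv_nonneg.2 hr),
      smul_eq_mul, smul_eq_mul, ← mul_add, inv_mul_le_iff₀ h, mul_one]

theorem DD_compact (hK : IsBody K) (hL : IsBody L) : IsCompact (DD K L) := by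
  have : DD K L = (fun p : ℝ × ((ι → ℝ) × (κ → ℝ)) => ((1 - p.1) • p.2.1, p.1 • p.2.2)) ''
      (Icc 0 1 ×ˢ (K ×ˢ L)) := by
    ext ⟨a, b⟩
    constructor
    · rintro ⟨t, ht, ⟨x, hx, hxe⟩, ⟨y, hy, hye⟩⟩
      refine ⟨(t, x, y), ⟨ht, hx, hy⟩, ?_⟩
      simp only at hxe hye
      simp [← hxe, ← hye]
    · rintro ⟨⟨t, x, y⟩, ⟨ht, hx, hy⟩, h⟩
      simp only [Prod.mk.injEq] at h
      exact ⟨t, ht, ⟨x, hx, h.1⟩, ⟨y, hy, h.2⟩⟩
  rw [this]
  exact (isCompact_Icc.prod (hK.2.1.prod hL.2.1)).image (by fun_prop)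

/-- the pyramid over `DD` -/
def P2 (K : Set (ι → ℝ)) (L : Set (κ → ℝ)) : Set (ℝ × ((ι → ℝ) × (κ → ℝ))) :=
  {z | z.1 ∈ Icc (0:ℝ) 1 ∧ z.2 ∈ z.1 • DD K L}

theorem P2_compact (hK : IsBody K) (hL : IsBody L) : IsCompact (P2 K L) := by
  have : P2 K L = (fun p : ℝ × ((ι → ℝ) × (κ → ℝ)) => (p.1, p.1 • p.2)) ''
      (Icc 0 1 ×ˢ (DD K L)) := by
    ext ⟨t, w⟩
    constructor
    · rintro ⟨ht, ⟨x, hx, hxe⟩⟩
      exact ⟨(t, x), ⟨ht, hx⟩, by simpa using hxe⟩
    · rintro ⟨⟨t', x⟩, ⟨ht, hx⟩, h⟩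
      simp only [Prod.mk.injEq] at h
      obtain ⟨rfl, rfl⟩ := h
      exact ⟨ht, ⟨x, hx, rfl⟩⟩
  rw [this]
  exact (isCompact_Icc.prod (DD_compact hK hL)).image (by fun_prop)

theorem integral_P2 (hK : IsBody K) (hL : IsBody L) {f : (ι → ℝ) × (κ → ℝ) → ℝ}
    (hf : Continuous f) {d : ℕ} (hd : ∀ (c : ℝ) x, f (c • x) = c ^ d * f x) :
    ∫ z in P2 K L, f z.2 =
      (1 / ((Fintype.card ι + Fintype.card κ + d + 1 : ℕ) : ℝ)) * ∫ w in DD K L, f w := by
  have hJ := P2_compact hK hL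
  have hJm : MeasurableSet (P2 K L) := hJ.measurableSet
  have hD := DD_compact hK hL
  rw [← integral_indicator hJm]
  have hint : Integrable ((P2 K L).indicator
      (fun z : ℝ × ((ι → ℝ) × (κ → ℝ)) => f z.2))
      ((volume : Measure ℝ).prod (volume : Measure ((ι → ℝ) × (κ → ℝ)))) := by
    rw [integrable_indicator_iff hJm]
    exact (Continuous.continuousOn (by fun_prop)).integrableOn_compact hJ
  have e0 := integral_prod _ hint
  rw [show (volume : Measure (ℝ × ((ι → ℝ) × (κ → ℝ)))) = (volume : Measure ℝ).prod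
    (volume : Measure ((ι → ℝ) × (κ → ℝ))) from rfl, e0]
  have hfin : Module.finrank ℝ ((ι → ℝ) × (κ → ℝ)) = Fintype.card ι + Fintype.card κ := by
    simp
  have key : ∀ t ∈ Ioo (0:ℝ) 1, ∫ w : (ι → ℝ) × (κ → ℝ),
      (P2 K L).indicator (fun z => f z.2) (t, w) =
      t ^ (Fintype.card ι + Fintype.card κ + d) * ∫ w in DD K L, f w := by
    intro t ht
    have hm : MeasurableSet (t • DD K L) := (hD.smul t).measurableSet
    have e1 : ∀ w : (ι → ℝ) × (κ → ℝ),
        (P2 K L).indicator (fun z => f z.2) (t, w) = (t • DD K L).indicator f w := by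
      intro w
      have hmem : (t, w) ∈ P2 K L ↔ w ∈ t • DD K L :=
        ⟨fun h => h.2, fun h => ⟨⟨ht.1.le, ht.2.le⟩, h⟩⟩
      by_cases h1 : w ∈ t • DD K L
      · rw [indicator_of_mem (hmem.2 h1), indicator_of_mem h1]
      · rw [indicator_of_notMem (fun h => h1 (hmem.1 h)), indicator_of_notMem h1]
    simp only [e1]
    rw [integral_indicator hm]
    have hH2 : Measure.IsAddHaarMeasure (volume : Measure ((ι → ℝ) × (κ → ℝ))) :=
      Measure.prod.instIsAddHaarMeasure _ _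
    have h := Measure.setIntegral_comp_smul_of_pos
      (volume : Measure ((ι → ℝ) × (κ → ℝ))) f (DD K L) ht.1
    simp only [hd, integral_const_mul, hfin, smul_eq_mul] at h
    have hc' : t ^ (Fintype.card ι + Fintype.card κ) ≠ 0 := by
      have := ht.1; positivity
    rw [pow_add, mul_assoc, h]
    field_simp
  have key0 : ∀ t, t ∉ Icc (0:ℝ) 1 → ∫ w : (ι → ℝ) × (κ → ℝ),
      (P2 K L).indicator (fun z => f z.2) (t, w) = 0 := by
    intro t ht
    have : ∀ w : (ι → ℝ) × (κ → ℝ),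
        (P2 K L).indicator (fun z => f z.2) (t, w) = 0 := by
      intro w
      rw [indicator_of_notMem]
      intro h
      exact ht h.1
    simp [this]
  have h0 : ∀ᵐ t : ℝ, t ≠ 0 := by simp [ae_iff, measure_singleton]
  have h1 : ∀ᵐ t : ℝ, t ≠ 1 := by simp [ae_iff, measure_singleton]
  have hI : (1 / ((Fintype.card ι + Fintype.card κ + d + 1 : ℕ) : ℝ)) =
      ∫ t in (0:ℝ)..1, t ^ (Fintype.card ι + Fintype.card κ + d) := by
    rw [integral_pow]; simp
  rw [hI, intervalIntegral.integral_of_le zero_le_one, ← integral_mul_const,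
    integral_Ioc_eq_integral_Ioo, ← integral_indicator measurableSet_Ioo]
  apply integral_congr_ae
  filter_upwards [h0, h1] with t ht0 ht1
  by_cases ht : t ∈ Ioo (0:ℝ) 1
  · rw [indicator_of_mem ht]; exact key t ht
  · rw [indicator_of_notMem ht]
    apply key0
    intro h
    exact ht ⟨lt_of_le_of_ne h.1 (Ne.symm ht0), lt_of_le_of_ne h.2 ht1⟩

/-- slices -/
theorem slice_int {A : Set (ℝ × ((ι → ℝ) × (κ → ℝ)))} (hA : IsCompact A)
    {f : (ι → ℝ) × (κ → ℝ) → ℝ} (hf : Continuous f) :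
    ∫ z in A, f z.2 = ∫ w, (volume {t : ℝ | (t, w) ∈ A}).toReal * f w := by
  have hJm : MeasurableSet A := hA.measurableSet
  rw [← integral_indicator hJm]
  have hint : Integrable (A.indicator
      (fun z : ℝ × ((ι → ℝ) × (κ → ℝ)) => f z.2))
      ((volume : Measure ℝ).prod (volume : Measure ((ι → ℝ) × (κ → ℝ)))) := by
    rw [integrable_indicator_iff hJm]
    exact (Continuous.continuousOn (by fun_prop)).integrableOn_compact hA
  have e0 := integral_prod_symm _ hint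
  rw [show (volume : Measure (ℝ × ((ι → ℝ) × (κ → ℝ)))) = (volume : Measure ℝ).prod
    (volume : Measure ((ι → ℝ) × (κ → ℝ))) from rfl, e0]
  apply integral_congr_ae
  filter_upwards with w
  have hm : MeasurableSet {t : ℝ | (t, w) ∈ A} := hJm.preimage (by fun_prop)
  have e1 : ∀ t : ℝ, A.indicator (fun z : ℝ × ((ι → ℝ) × (κ → ℝ)) => f z.2) (t, w) =
      {t : ℝ | (t, w) ∈ A}.indicator (fun _ => f w) t := by
    intro t
    by_cases h : (t, w) ∈ A
    · rw [indicator_of_mem h, indicator_of_mem (show t ∈ {t : ℝ | (t, w) ∈ A} from h)]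
    · rw [indicator_of_notMem h, indicator_of_notMem (show t ∉ {t : ℝ | (t, w) ∈ A} from h)]
  simp only [e1]
  rw [integral_indicator hm, setIntegral_const, smul_eq_mul]
  rfl

theorem integral_DD (hK : IsBody K) (hL : IsBody L) (h0 : (0 : ι → ℝ) ∈ interior K)
    (h0' : (0 : κ → ℝ) ∈ interior L) {g : (ι → ℝ) → ℝ} {h : (κ → ℝ) → ℝ}
    (hg : Continuous g) (hh : Continuous h) {p q : ℕ}
    (hgp : ∀ (c : ℝ) x, g (c • x) = c ^ p * g x) (hhq : ∀ (c : ℝ) x, h (c • x) = c ^ q * h x) :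
    ∫ w in DD K L, g w.1 * h w.2 =
      ((Fintype.card ι + Fintype.card κ + (p + q) + 1 : ℕ) : ℝ) *
        bb (Fintype.card ι + p) (Fintype.card κ + q) * ((∫ x in K, g x) * ∫ y in L, h y) := by
  have hf : Continuous (fun w : (ι → ℝ) × (κ → ℝ) => g w.1 * h w.2) := by fun_prop
  have h1 := integral_P2 hK hL hf (d := p + q) (by
    intro c x
    simp only [Prod.smul_fst, Prod.smul_snd, hgp, hhq]
    ring)
  have h2 := integral_J' hK.2.1 hL.2.1 (k := fun _ => 1) continuous_const hg hh hgp hhq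
  simp only [one_mul, int_bb] at h2
  have h3 := slice_int (P2_compact hK hL) hf
  have h4 := slice_int (J'_compact hK.2.1 hL.2.1) hf
  have h5 : ∀ w : (ι → ℝ) × (κ → ℝ),
      volume {t : ℝ | (t, w) ∈ J' K L} = volume {t : ℝ | (t, w) ∈ P2 K L} := by
    intro w
    have e : {t : ℝ | (t, w) ∈ J' K L} = (fun t => t + gauge K w.1) ⁻¹' {t : ℝ | (t, w) ∈ P2 K L} := by
      ext t
      have g1 := gauge_nonneg (s := K) w.1
      have g2 := gauge_nonneg (s := L) w.2
      constructor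
      · rintro ⟨ht, e1, e2⟩
        simp only at ht e1 e2
        rw [mem_smul_iff hK h0 (by linarith [ht.2])] at e1
        rw [mem_smul_iff hL h0' ht.1] at e2
        have hr : 0 ≤ t + gauge K w.1 := by linarith [ht.1]
        refine ⟨⟨hr, ?_⟩, ?_⟩
        · show t + gauge K w.1 ≤ 1
          linarith
        · show w ∈ (t + gauge K w.1) • DD K L
          rw [mem_smul_DD hK hL h0 h0' hr]
          linarith
      · rintro ⟨hr, e1⟩
        have hr1 : 0 ≤ t + gauge K w.1 := hr.1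
        have hr2 : t + gauge K w.1 ≤ 1 := hr.2
        have e2 : w ∈ (t + gauge K w.1) • DD K L := e1
        rw [mem_smul_DD hK hL h0 h0' hr1] at e2
        refine ⟨⟨by linarith, by linarith⟩, ?_, ?_⟩
        · show w.1 ∈ (1 - t) • K
          rw [mem_smul_iff hK h0 (by linarith)]; linarith
        · show w.2 ∈ t • L
          rw [mem_smul_iff hL h0' (by linarith)]; linarith
    rw [e, measure_preimage_add_right]
  have h6 : ∫ z in J' K L, g z.2.1 * h z.2.2 = ∫ z in P2 K L, g z.2.1 * h z.2.2 := by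
    rw [h3, h4]
    simp only [h5]
  rw [h2] at h6
  rw [h1] at h6
  have hN : ((Fintype.card ι + Fintype.card κ + (p + q) + 1 : ℕ) : ℝ) ≠ 0 := by positivity
  rw [mul_assoc, h6]
  field_simp

end

end Vale.Agent.P254j
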