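import Vale.Agent.P254j.FSum

open MeasureTheory Set
open scoped Pointwise

namespace Vale.Agent.P254j

variable {ι κ : Type} [Fintype ι] [Fintype κ]

/-- free sum in coordinates -/
def FS (K : Set (ι → ℝ)) (L : Set (κ → ℝ)) : Set (ι ⊕ κ → ℝ) := H2 ⁻¹' DD K L

section
variable {K : Set (ι → ℝ)} {L : Set (κ → ℝ)}

theorem FS_body (hK : IsBody K) (hL : IsBody L) (h0 : (0 : ι → ℝ) ∈ interior K)
    (h0' : (0 : κ → ℝ) ∈ interior L) : IsBody (FS K L) := by
  have hnK : K ∈ nhds (0 : ι → ℝ) := mem_interior_iff_mem_nhds.1 h0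
  have hnL : L ∈ nhds (0 : κ → ℝ) := mem_interior_iff_mem_nhds.1 h0'
  refine ⟨?_, ?_, ?_⟩
  · intro z hz z' hz' u v hu hv huv
    have h1 : gauge K (H2 z).1 + gauge L (H2 z).2 ≤ 1 := (mem_DD hK hL h0 h0' _).1 hz
    have h2 : gauge K (H2 z').1 + gauge L (H2 z').2 ≤ 1 := (mem_DD hK hL h0 h0' _).1 hz'
    show H2 (u • z + v • z') ∈ DD K L
    rw [mem_DD hK hL h0 h0']
    have e1 : (H2 (u • z + v • z')).1 = u • (H2 z).1 + v • (H2 z').1 := rfl
    have e2 : (H2 (u • z + v • z')).2 = u • (H2 z).2 + v • (H2 z').2 := rfl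
    rw [e1, e2]
    have g1 := gauge_add_le hK.1 (absorbent_nhds_zero hnK) (u • (H2 z).1) (v • (H2 z').1)
    have g2 := gauge_add_le hL.1 (absorbent_nhds_zero hnL) (u • (H2 z).2) (v • (H2 z').2)
    rw [gauge_smul_of_nonneg hu, gauge_smul_of_nonneg hv, smul_eq_mul, smul_eq_mul] at g1 g2
    have m1 := mul_le_mul_of_nonneg_left h1 hu
    have m2 := mul_le_mul_of_nonneg_left h2 hv
    nlinarith
  · exact (H2 (ι := ι) (κ := κ)).isCompact_preimage.2 (DD_compact hK hL)
  · have hopen : IsOpen {z : ι ⊕ κ → ℝ | gauge K (H2 z).1 + gauge L (H2 z).2 < 1} := by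
      have c1 : Continuous (gauge K) := continuous_gauge hK.1 hnK
      have c2 : Continuous (gauge L) := continuous_gauge hL.1 hnL
      have c3 : Continuous (fun z : ι ⊕ κ → ℝ => gauge K (H2 z).1 + gauge L (H2 z).2) :=
        (c1.comp (continuous_fst.comp H2.continuous)).add
          (c2.comp (continuous_snd.comp H2.continuous))
      exact isOpen_lt c3 continuous_const
    have hsub : {z : ι ⊕ κ → ℝ | gauge K (H2 z).1 + gauge L (H2 z).2 < 1} ⊆ FS K L := by
      intro z hz
      show H2 z ∈ DD K L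
      rw [mem_DD hK hL h0 h0']
      exact le_of_lt hz
    refine ⟨0, interior_maximal hsub hopen ?_⟩
    have e1 : (H2 (0 : ι ⊕ κ → ℝ)).1 = 0 := rfl
    have e2 : (H2 (0 : ι ⊕ κ → ℝ)).2 = 0 := rfl
    show gauge K (H2 0).1 + gauge L (H2 0).2 < 1
    rw [e1, e2, gauge_zero, gauge_zero]
    norm_num

theorem integral_FS (hK : IsBody K) (hL : IsBody L) (h0 : (0 : ι → ℝ) ∈ interior K)
    (h0' : (0 : κ → ℝ) ∈ interior L) {g : (ι → ℝ) → ℝ} {h : (κ → ℝ) → ℝ}
    (hg : Continuous g) (hh : Continuous h) {p q : ℕ}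
    (hgp : ∀ (c : ℝ) x, g (c • x) = c ^ p * g x) (hhq : ∀ (c : ℝ) x, h (c • x) = c ^ q * h x) :
    ∫ z in FS K L, g (fun i => z (Sum.inl i)) * h (fun j => z (Sum.inr j)) =
      ((Fintype.card ι + Fintype.card κ + (p + q) + 1 : ℕ) : ℝ) *
        bb (Fintype.card ι + p) (Fintype.card κ + q) * ((∫ x in K, g x) * ∫ y in L, h y) := by
  rw [← integral_DD hK hL h0 h0' hg hh hgp hhq]
  exact Ξ_mp.setIntegral_preimage_emb (Ξ (ι := ι) (κ := κ)).measurableEmbedding
    (fun w : (ι → ℝ) × (κ → ℝ) => g w.1 * h w.2) (DD K L)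

theorem vol_FS (hK : IsBody K) (hL : IsBody L) (h0 : (0 : ι → ℝ) ∈ interior K)
    (h0' : (0 : κ → ℝ) ∈ interior L) :
    vol (FS K L) = ((Fintype.card ι : ℝ) + Fintype.card κ + 1) *
      bb (Fintype.card ι) (Fintype.card κ) * (vol K * vol L) := by
  have := integral_FS hK hL h0 h0' (g := fun _ => 1) (h := fun _ => 1) continuous_const
    continuous_const (p := 0) (q := 0) (by simp) (by simp)
  simpa [real_vol] using this

noncomputable def alq (m n : ℕ) : ℝ := (m + 1) * (m + 2) / ((m + n + 1) * (m + n + 2))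

theorem Cov_FS (hK : IsBody K) (hL : IsBody L) (h0 : (0 : ι → ℝ) ∈ interior K)
    (h0' : (0 : κ → ℝ) ∈ interior L) (cK : ∀ i, ∫ x in K, x i = 0)
    (cL : ∀ j, ∫ x in L, x j = 0) :
    Cov (FS K L) = Matrix.fromBlocks (alq (Fintype.card ι) (Fintype.card κ) • Cov K) 0 0
        (alq (Fintype.card κ) (Fintype.card ι) • Cov L) := by
  have hV := vol_pos hK
  have hW := vol_pos hL
  have hb := bb_pos (Fintype.card ι) (Fintype.card κ)
  have bl : ∀ i, bar (FS K L) (Sum.inl i) = 0 := by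
    intro i
    have := integral_FS hK hL h0 h0' (g := fun x => x i) (h := fun _ => 1) (by fun_prop)
      continuous_const (p := 1) (q := 0) (by simp) (by simp)
    simp only [mul_one, cK, zero_mul, mul_zero] at this
    unfold bar
    rw [this, mul_zero]
  have br : ∀ j, bar (FS K L) (Sum.inr j) = 0 := by
    intro j
    have := integral_FS hK hL h0 h0' (g := fun _ => 1) (h := fun y => y j) continuous_const
      (by fun_prop) (p := 0) (q := 1) (by simp) (by simp)
    simp only [one_mul, cL, mul_zero] at this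
    unfold bar
    rw [this, mul_zero]
  have hab : ∀ i j, ∫ z in FS K L, z (Sum.inl i) * z (Sum.inr j) = 0 := by
    intro i j
    have := integral_FS hK hL h0 h0' (g := fun x => x i) (h := fun y => y j) (by fun_prop)
      (by fun_prop) (p := 1) (q := 1) (by simp) (by simp)
    simpa only [cK, zero_mul, mul_zero] using this
  ext (i | j) (i' | j')
  · have := integral_FS hK hL h0 h0' (g := fun x => x i * x i') (h := fun _ => 1) (by fun_prop)
      continuous_const (p := 2) (q := 0) (by intro c x; simp; ring) (by simp)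
    simp only [mul_one, integral_one, add_zero] at this
    simp only [Cov, Matrix.of_apply, Matrix.fromBlocks_apply₁₁, Matrix.smul_apply, smul_eq_mul]
    rw [bl, bl, bar_zero i (cK i), bar_zero i' (cK i')]
    simp only [sub_zero]
    rw [this, vol_FS hK hL h0 h0', bb_succ_left (a := Fintype.card ι + 1), bb_succ_left, alq]
    push_cast
    field_simp
    ring
  · simp only [Cov, Matrix.of_apply, Matrix.fromBlocks_apply₁₂, Matrix.zero_apply]
    rw [bl, br]
    simp only [sub_zero]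
    rw [hab, mul_zero]
  · simp only [Cov, Matrix.of_apply, Matrix.fromBlocks_apply₂₁, Matrix.zero_apply]
    rw [bl, br]
    simp only [sub_zero]
    have h := hab i' j
    simp only [mul_comm] at h ⊢
    rw [h, mul_zero]
  · have := integral_FS hK hL h0 h0' (g := fun _ => 1) (h := fun y => y j * y j') continuous_const
      (by fun_prop) (p := 0) (q := 2) (by simp) (by intro c x; simp; ring)
    simp only [one_mul, integral_one, add_zero, zero_add] at this
    simp only [Cov, Matrix.of_apply, Matrix.fromBlocks_apply₂₂, Matrix.smul_apply, smul_eq_mul]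
    rw [br, br, bar_zero j (cL j), bar_zero j' (cL j')]
    simp only [sub_zero]
    rw [this, vol_FS hK hL h0 h0', bb_succ_right (b := Fintype.card κ + 1), bb_succ_right, alq]
    push_cast
    field_simp
    ring

theorem s_identity2 (m n : ℕ) :
    alq m n ^ m * alq n m ^ n / (((m : ℝ) + n + 1) * bb m n) ^ 2 =
      s (m + n) / (s m * s n) * ((m + n + 1) / ((m + 1) * (n + 1))) := by
  unfold alq bb s
  have h1 : (m.factorial : ℝ) ≠ 0 := by exact_mod_cast m.factorial_ne_zero
  have h2 : (n.factorial : ℝ) ≠ 0 := by exact_mod_cast n.factorial_ne_zero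
  have h3 : ((m + n).factorial : ℝ) ≠ 0 := by exact_mod_cast (m + n).factorial_ne_zero
  have f1 : ((m + n + 1).factorial : ℝ) = ((m : ℝ) + n + 1) * (m + n).factorial := by
    rw [Nat.factorial_succ]; push_cast; ring
  rw [f1]
  have e1 : (((m + n : ℕ) : ℝ) + 1) = (m + n + 1 : ℝ) := by push_cast; ring
  have e2 : (((m + n : ℕ) : ℝ) + 2) = (m + n + 2 : ℝ) := by push_cast; ring
  have e3 : (n + m + 1 : ℝ) = m + n + 1 := by ring
  have e4 : (n + m + 2 : ℝ) = m + n + 2 := by ring
  rw [e1, e2, e3, e4]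
  have p1 : (0:ℝ) < m + n + 1 := by positivity
  have p2 : (0:ℝ) < m + n + 2 := by positivity
  have p3 : (0:ℝ) < m + 1 := by positivity
  have p4 : (0:ℝ) < m + 2 := by positivity
  have p5 : (0:ℝ) < n + 1 := by positivity
  have p6 : (0:ℝ) < n + 2 := by positivity
  generalize (m + n + 1 : ℝ) = A at *
  generalize (m + n + 2 : ℝ) = B at *
  generalize (m + 1 : ℝ) = C at *
  generalize (m + 2 : ℝ) = D at *
  generalize (n + 1 : ℝ) = E at *
  generalize (n + 2 : ℝ) = G at *
  simp only [div_pow, mul_pow]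
  field_simp
  ring

theorem Fk_FS [DecidableEq ι] [DecidableEq κ] (hK : IsBody K) (hL : IsBody L)
    (h0 : (0 : ι → ℝ) ∈ interior K) (h0' : (0 : κ → ℝ) ∈ interior L)
    (cK : ∀ i, ∫ x in K, x i = 0) (cL : ∀ j, ∫ x in L, x j = 0) :
    Fk (FS K L) / s (Fintype.card ι + Fintype.card κ) =
      (Fk K / s (Fintype.card ι)) * (Fk L / s (Fintype.card κ)) *
        (((Fintype.card ι : ℝ) + Fintype.card κ + 1) /
          (((Fintype.card ι : ℝ) + 1) * ((Fintype.card κ : ℝ) + 1))) := by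
  have hV := vol_pos hK
  have hW := vol_pos hL
  have hb := bb_pos (Fintype.card ι) (Fintype.card κ)
  have hid := s_identity2 (Fintype.card ι) (Fintype.card κ)
  have s1 := s_pos (Fintype.card ι)
  have s2 := s_pos (Fintype.card κ)
  have s3 := s_pos (Fintype.card ι + Fintype.card κ)
  unfold Fk
  rw [Cov_FS hK hL h0 h0' cK cL, Matrix.det_fromBlocks_zero₂₁,
    Matrix.det_smul, Matrix.det_smul, vol_FS hK hL h0 h0']
  have : (alq (Fintype.card ι) (Fintype.card κ) ^ Fintype.card ι * (Cov K).det *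
        (alq (Fintype.card κ) (Fintype.card ι) ^ Fintype.card κ * (Cov L).det)) /
      (((Fintype.card ι : ℝ) + Fintype.card κ + 1) *
        bb (Fintype.card ι) (Fintype.card κ) * (vol K * vol L)) ^ 2 =
      (alq (Fintype.card ι) (Fintype.card κ) ^ Fintype.card ι *
        alq (Fintype.card κ) (Fintype.card ι) ^ Fintype.card κ /
        (((Fintype.card ι : ℝ) + Fintype.card κ + 1) *
          bb (Fintype.card ι) (Fintype.card κ)) ^ 2) *
        ((Cov K).det / vol K ^ 2) * ((Cov L).det / vol L ^ 2) := by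
    field_simp
  rw [this, hid]
  field_simp

end

theorem freeSum_eq {m n : ℕ} (K : Set (Fin m → ℝ)) (L : Set (Fin n → ℝ)) :
    freeSum K L = (fun z : Fin (m + n) → ℝ => fun i => z (finSumFinEquiv i)) ⁻¹' (FS K L) := by
  ext z
  constructor
  · rintro ⟨t, ht0, ht1, ⟨x, hx, hxe⟩, ⟨y, hy, hye⟩⟩
    refine ⟨t, ⟨ht0, ht1⟩, ⟨x, hx, ?_⟩, ⟨y, hy, ?_⟩⟩
    · exact (funext hxe).symm
    · exact (funext hye).symm
  · rintro ⟨t, ⟨ht0, ht1⟩, ⟨x, hx, hxe⟩, ⟨y, hy, hye⟩⟩
    refine ⟨t, ht0, ht1, ⟨x, hx, ?_⟩, ⟨y, hy, ?_⟩⟩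
    · intro i; exact (congrFun hxe i).symm
    · intro j; exact (congrFun hye j).symm

theorem freeSum_body {m n : ℕ} {K : Set (Fin m → ℝ)} {L : Set (Fin n → ℝ)} (hK : IsBody K)
    (hL : IsBody L) (h0 : (0 : Fin m → ℝ) ∈ interior K) (h0' : (0 : Fin n → ℝ) ∈ interior L) :
    IsBody (freeSum K L) := by
  rw [freeSum_eq]
  exact (reindex' finSumFinEquiv (FS_body hK hL h0 h0')).1

theorem phi_freeSum {m n : ℕ} {K : Set (Fin m → ℝ)} {L : Set (Fin n → ℝ)} (hK : IsBody K)
    (hL : IsBody L) (h0 : (0 : Fin m → ℝ) ∈ interior K) (h0' : (0 : Fin n → ℝ) ∈ interior L)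
    (cK : ∀ i, P254.centroid K i = 0) (cL : ∀ j, P254.centroid L j = 0) :
    Fk (freeSum K L) / s (m + n) = (Fk K / s m) * (Fk L / s n) *
      (((m : ℝ) + n + 1) / (((m : ℝ) + 1) * ((n : ℝ) + 1))) := by
  have cK' : ∀ i, ∫ x in K, x i = 0 := by
    intro i
    have := cK i
    unfold P254.centroid at this
    rw [div_eq_zero_iff] at this
    exact this.resolve_right (real_ne hK)
  have cL' : ∀ i, ∫ x in L, x i = 0 := by
    intro i
    have := cL i
    unfold P254.centroid at this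
    rw [div_eq_zero_iff] at this
    exact this.resolve_right (real_ne hL)
  rw [freeSum_eq, (reindex' finSumFinEquiv (FS_body hK hL h0 h0')).2]
  have h := Fk_FS hK hL h0 h0' cK' cL'
  simpa only [Fintype.card_fin] using h

/-- free sums are strict -/
theorem freeSum_lt {m n : ℕ} (hm : 0 < m) (hn : 0 < n) {K : Set (Fin m → ℝ)}
    {L : Set (Fin n → ℝ)} (hK : IsBody K) (hL : IsBody L) (h0 : (0 : Fin m → ℝ) ∈ interior K)
    (h0' : (0 : Fin n → ℝ) ∈ interior L)
    (cK : ∀ i, P254.centroid K i = 0) (cL : ∀ j, P254.centroid L j = 0)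
    (h1 : isoConst K ≤ isoConst (stdSimp m)) (h2 : isoConst L ≤ isoConst (stdSimp n)) :
    isoConst (freeSum K L) < isoConst (stdSimp (m + n)) := by
  have h := phi_freeSum hK hL h0 h0' cK cL
  rw [le_iff_one hK hm (by simp)] at h1
  rw [le_iff_one hL hn (by simp)] at h2
  rw [lt_iff_one (freeSum_body hK hL h0 h0') (by omega) (by simp), ← div_lt_one (s_pos _), h]
  have e1 : (Fk K / s m) * (Fk L / s n) ≤ 1 :=
    mul_le_one₀ ((div_le_one (s_pos _)).2 h1) (div_nonneg (Fk_nonneg hL) (s_pos _).le)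
      ((div_le_one (s_pos _)).2 h2)
  have hm' : (0:ℝ) < m := by exact_mod_cast hm
  have hn' : (0:ℝ) < n := by exact_mod_cast hn
  have e2 : ((m : ℝ) + n + 1) / (((m : ℝ) + 1) * ((n : ℝ) + 1)) < 1 := by
    rw [div_lt_one (by positivity)]
    nlinarith [mul_pos hm' hn']
  have e3 : 0 ≤ ((m : ℝ) + n + 1) / (((m : ℝ) + 1) * ((n : ℝ) + 1)) := by positivity
  calc (Fk K / s m) * (Fk L / s n) * (((m : ℝ) + n + 1) / (((m : ℝ) + 1) * ((n : ℝ) + 1)))
      ≤ 1 * (((m : ℝ) + n + 1) / (((m : ℝ) + 1) * ((n : ℝ) + 1))) :=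
        mul_le_mul_of_nonneg_right e1 e3
    _ < 1 := by rw [one_mul]; exact e2

end Vale.Agent.P254j
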