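import Vale.Agent.P254j.Cent
import Vale.Agent.P254o.OMain
import Vale.Agent.P254r.Main

open MeasureTheory Set

namespace Vale.Agent.P254j

open Vale.Agent.P254 (IsSimplex simplex)

theorem Cls_body {n : ℕ} {K : Set (Fin n → ℝ)} (h : Cls K) : 1 ≤ n ∧ IsBody K := by
  induction h with
  | simplex hn hS => exact ⟨hn, simplex_isBody hS⟩
  | oneSym hn hK _ => exact ⟨by omega, hK⟩
  | orlicz φ hn h1 h2 h3 h4 h5 =>
    have h : P254o.Orl φ := ⟨h1, h2, h3, h4, h5⟩
    exact ⟨by omega, P254o.ball_convex h, P254o.ball_compact h, P254o.ball_interior h⟩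
  | revolution hm hK _ => exact ⟨by omega, hK⟩
  | affine T _ ih => exact ⟨ih.1, body_affine ih.2 T⟩
  | prod _ _ ih1 ih2 => exact ⟨by omega, prodBody_body ih1.2 ih2.2⟩
  | join _ _ ih1 ih2 => exact ⟨by omega, joinBody_body ih1.2 ih2.2⟩
  | freeSum _ _ c1 c2 ih1 ih2 =>
    exact ⟨by omega, freeSum_body ih1.2 ih2.2 (zero_mem ih1.2 c1) (zero_mem ih2.2 c2)⟩

/-- Q1 is inherited by joins, products and free sums -/
theorem inherit {m n : ℕ} (hm : 1 ≤ m) (hn : 1 ≤ n) {K : Set (Fin m → ℝ)} {L : Set (Fin n → ℝ)}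
    (hK : IsBody K) (hL : IsBody L) (h1 : isoConst K < isoConst (stdSimp m) ∨ IsSimplex K)
    (h2 : isoConst L < isoConst (stdSimp n) ∨ IsSimplex L) :
    (isoConst (joinBody K L) < isoConst (stdSimp (m + n + 1)) ∨ IsSimplex (joinBody K L)) ∧
      isoConst (prodBody K L) < isoConst (stdSimp (m + n)) ∧
      ((∀ i, P254.centroid K i = 0) → (∀ j, P254.centroid L j = 0) →
        isoConst (freeSum K L) < isoConst (stdSimp (m + n))) := by
  have l1 := h1.elim (fun h => h.le) (fun h => (iso_simplex h).le)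
  have l2 := h2.elim (fun h => h.le) (fun h => (iso_simplex h).le)
  refine ⟨?_, prod_lt hm hn hK hL l1 l2, fun c1 c2 =>
    freeSum_lt hm hn hK hL (zero_mem hK c1) (zero_mem hL c2) c1 c2 l1 l2⟩
  rcases h1 with ih1 | ih1
  · left
    exact join_lt_left hm hn hK hL ih1 l2
  · rcases h2 with ih2 | ih2
    · left
      exact join_lt_right hm hn hK hL l1 ih2
    · right
      exact join_simplex_simplex ih1 ih2

theorem Cls_main {n : ℕ} {K : Set (Fin n → ℝ)} (h : Cls K) :
    isoConst K < isoConst (stdSimp n) ∨ IsSimplex K := by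
  induction h with
  | simplex hn hS => exact Or.inr hS
  | oneSym hn hK hs =>
    left
    have := (P254.main _ hn hK.1 hK.2.1 hK.2.2 hs.1 hs.2).2
    rw [iso_eq, iso_eq] at this
    exact this
  | orlicz φ hn h1 h2 h3 h4 h5 =>
    left
    have h : P254o.Orl φ := ⟨h1, h2, h3, h4, h5⟩
    have := (P254o.main _ hn h).2
    rw [iso_eq, iso_eq] at this
    exact this
  | revolution hm hK hr =>
    left
    have := P254r.main _ hm hK.1 hK.2.1 hK.2.2 hr (AffineEquiv.refl ℝ _) (std_isSimplex _)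
    rw [AffineEquiv.coe_refl, Set.image_id, iso_eq, iso_eq] at this
    exact this
  | affine T hK ih =>
    rcases ih with ih | ih
    · left; rw [iso_aff (Cls_body hK).2 T]; exact ih
    · right; exact simplex_affine ih T
  | prod hK hL ih1 ih2 =>
    exact Or.inl (inherit (Cls_body hK).1 (Cls_body hL).1 (Cls_body hK).2 (Cls_body hL).2 ih1 ih2).2.1
  | join hK hL ih1 ih2 =>
    exact (inherit (Cls_body hK).1 (Cls_body hL).1 (Cls_body hK).2 (Cls_body hL).2 ih1 ih2).1
  | freeSum hK hL c1 c2 ih1 ih2 =>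
    exact Or.inl ((inherit (Cls_body hK).1 (Cls_body hL).1 (Cls_body hK).2 (Cls_body hL).2
      ih1 ih2).2.2 c1 c2)

end Vale.Agent.P254j
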