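import Vale.Agent.P254j.Final

open MeasureTheory Set Filter Topology

namespace Vale.Agent.P254j

open Vale.Agent.P254 (IsSimplex simplex)

theorem cc_eq (n : ℕ) : cc n = (1 + (-2) / ((n + 3 : ℕ) : ℝ)) ^ (n + 3) *
    (((n : ℝ) + 3) / (n + 2)) ^ 2 := by
  have p1 : (0:ℝ) < n + 1 := by positivity
  have p2 : (0:ℝ) < n + 2 := by positivity
  have p3 : (0:ℝ) < n + 3 := by positivity
  have e : (1 + (-2) / ((n + 3 : ℕ) : ℝ)) = ((n : ℝ) + 1) / (n + 3) := by
    push_cast
    field_simp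
    ring
  rw [e]
  unfold cc
  generalize (n : ℝ) + 1 = A at *
  generalize (n : ℝ) + 2 = B at *
  generalize (n : ℝ) + 3 = C at *
  rw [div_pow, div_pow]
  field_simp
  ring

theorem cc_tendsto : Tendsto cc atTop (𝓝 (Real.exp (-2))) := by
  have h1 : Tendsto (fun n : ℕ => (1 + (-2) / ((n + 3 : ℕ) : ℝ)) ^ (n + 3)) atTop
      (𝓝 (Real.exp (-2))) :=
    (Real.tendsto_one_add_div_pow_exp (-2)).comp (tendsto_add_atTop_nat 3)
  have h2 : Tendsto (fun n : ℕ => (((n : ℝ) + 3) / (n + 2)) ^ 2) atTop (𝓝 1) := by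
    have h3 : Tendsto (fun n : ℕ => ((n : ℝ) + 3) / (n + 2)) atTop (𝓝 1) := by
      have h4 : Tendsto (fun n : ℕ => 1 + 1 / ((n : ℝ) + 2)) atTop (𝓝 (1 + 0)) := by
        apply Tendsto.const_add
        have h5 : Tendsto (fun n : ℕ => (n : ℝ) + 2) atTop atTop :=
          tendsto_atTop_add_const_right _ _ tendsto_natCast_atTop_atTop
        have h6 := tendsto_inv_atTop_zero.comp h5
        refine h6.congr fun n => ?_
        simp
      rw [add_zero] at h4
      refine h4.congr fun n => ?_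
      have : (0:ℝ) < n + 2 := by positivity
      field_simp
      ring
    simpa using h3.pow 2
  have h := h1.mul h2
  rw [mul_one] at h
  exact h.congr fun n => (cc_eq n).symm

theorem log_s (n : ℕ) : Real.log (s n) = ∑ k ∈ Finset.range n, Real.log (cc k) := by
  induction n with
  | zero => rw [s_zero]; simp
  | succ n ih =>
    rw [s_succ, Real.log_mul (s_pos n).ne' (cc_pos n).ne', ih, Finset.sum_range_succ]

theorem log_s_lim : Tendsto (fun n : ℕ => ((n : ℝ))⁻¹ * Real.log (s n)) atTop (𝓝 (-2)) := by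
  have h : Tendsto (fun k => Real.log (cc k)) atTop (𝓝 (-2)) := by
    have := (Real.continuousAt_log (Real.exp_pos (-2)).ne').tendsto.comp cc_tendsto
    rw [Real.log_exp] at this
    exact this
  have h2 := h.cesaro
  refine h2.congr fun n => ?_
  rw [log_s]

/-- `L_{Δ_n} → 1/e` -/
theorem iso_std_lim : Tendsto (fun n : ℕ => isoConst (stdSimp n)) atTop (𝓝 (Real.exp (-1))) := by
  have h : Tendsto (fun n : ℕ => Real.exp (((n : ℝ))⁻¹ * Real.log (s n) * (1 / 2))) atTop
      (𝓝 (Real.exp (-2 * (1 / 2)))) :=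
    (Real.continuous_exp.tendsto _).comp (log_s_lim.mul_const (1 / 2))
  have e : (-2 * (1 / 2) : ℝ) = -1 := by norm_num
  rw [e] at h
  refine h.congr' ?_
  filter_upwards [eventually_gt_atTop 0] with n hn
  have hn' : (0:ℝ) < n := by exact_mod_cast hn
  have : isoConst (stdSimp n) = s n ^ (1 / (2 * (n : ℝ))) := by
    have h1 := Fk_simplex n
    unfold Fk at h1
    unfold isoConst
    rw [h1, Fintype.card_fin]
  rw [this, Real.rpow_def_of_pos (s_pos n)]
  congr 1
  field_simp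

/-- (A), in the `1/e` form -/
theorem partA_e {Λ : ℝ} (hΛ : 1 ≤ Λ)
    (h : ∀ ε : ℝ, 0 < ε → ∀ N0 : ℕ, ∃ N, N0 ≤ N ∧ ∀ K : Set (Fin N → ℝ), IsBody K →
      isoConst K ≤ Λ * Real.exp (-1) + ε)
    {n : ℕ} (hn : 0 < n) {K : Set (Fin n → ℝ)} (hK : IsBody K) :
    isoConst K ≤ Λ ^ (((n : ℝ) + 1) / n) * isoConst (stdSimp n) := by
  apply partA hΛ _ hn hK
  intro ε hε N0
  have he := Real.exp_pos (-1)
  have hlim : Tendsto (fun n : ℕ => (Λ + ε) * isoConst (stdSimp n)) atTop
      (𝓝 ((Λ + ε) * Real.exp (-1))) := iso_std_lim.const_mul _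
  have hlt : Λ * Real.exp (-1) + ε * Real.exp (-1) / 2 < (Λ + ε) * Real.exp (-1) := by
    have : 0 < ε * Real.exp (-1) := by positivity
    nlinarith
  obtain ⟨N1, hN1⟩ := eventually_atTop.1 (hlim.eventually (lt_mem_nhds hlt))
  obtain ⟨N, hN, hb⟩ := h (ε * Real.exp (-1) / 2) (by positivity) (max N0 N1)
  refine ⟨N, le_trans (le_max_left _ _) hN, fun K hK => ?_⟩
  exact (hb K hK).trans (hN1 N (le_trans (le_max_right _ _) hN)).le

end Vale.Agent.P254j
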