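import Vale.Agent.P254j.Lim

open MeasureTheory Set

namespace Vale.Agent.P254j

open Vale.Agent.P254 (IsSimplex simplex)

/-- the base of a pyramid which is a simplex is a simplex -/
theorem base_simplex {n : ℕ} {K : Set (Fin n → ℝ)} (hK : IsBody K) {J : Set (Fin (n + 1) → ℝ)}
    (hJ : IsSimplex J) (h0 : ∀ z ∈ J, 0 ≤ z (Fin.last n))
    (h1 : ∀ x : Fin n → ℝ, (Fin.snoc (α := fun _ => ℝ) x 0 : Fin (n + 1) → ℝ) ∈ J ↔ x ∈ K) :
    IsSimplex K := by
  classical
  obtain ⟨p, hp, rfl⟩ := hJ
  let I : Set (Fin (n + 1 + 1)) := {i | p i (Fin.last n) = 0}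
  let q : I → (Fin n → ℝ) := fun i j => p i (Fin.castSucc j)
  let e : (Fin n → ℝ) →ₗ[ℝ] (Fin (n + 1) → ℝ) :=
    { toFun := fun x => Fin.snoc (α := fun _ => ℝ) x 0
      map_add' := by
        intro x y; ext j; refine Fin.lastCases ?_ (fun j => ?_) j <;> simp
      map_smul' := by
        intro c x; ext j; refine Fin.lastCases ?_ (fun j => ?_) j <;> simp }
  have he : ∀ i : I, e (q i) = p i := by
    intro i; ext j; refine Fin.lastCases ?_ (fun j => ?_) j
    · have := i.2
      simp only [I, mem_setOf_eq] at this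
      rw [this]
      simp [e]
    · simp [e, q]
  have hq : AffineIndependent ℝ q := by
    apply AffineIndependent.of_comp e.toAffineMap
    have : (⇑e.toAffineMap ∘ q) = p ∘ (Subtype.val : I → _) := by
      funext i; exact he i
    rw [this]
    exact hp.comp_embedding (Function.Embedding.subtype _)
  have hKe : K = convexHull ℝ (range q) := by
    apply Subset.antisymm
    · intro x hx
      have hx1 := (h1 x).2 hx
      have hC : Convex ℝ {z : Fin (n + 1) → ℝ | 0 ≤ z (Fin.last n) ∧
          (z (Fin.last n) = 0 → (fun j => z (Fin.castSucc j)) ∈ convexHull ℝ (range q))} := by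
        rintro z ⟨hz, hz'⟩ w ⟨hw, hw'⟩ a b ha hb hab
        refine ⟨?_, fun h => ?_⟩
        · simp only [Pi.add_apply, Pi.smul_apply, smul_eq_mul]; positivity
        · simp only [Pi.add_apply, Pi.smul_apply, smul_eq_mul] at h
          have m1 : 0 ≤ a * z (Fin.last n) := by positivity
          have m2 : 0 ≤ b * w (Fin.last n) := by positivity
          have e1 : a * z (Fin.last n) = 0 := by linarith
          have e2 : b * w (Fin.last n) = 0 := by linarith
          rcases mul_eq_zero.1 e1 with e1 | e1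
          · have hb1 : b = 1 := by linarith
            subst e1 hb1
            simp only [zero_smul, one_smul, zero_add] at h ⊢
            exact hw' (by simpa using h)
          · rcases mul_eq_zero.1 e2 with e2 | e2
            · have ha1 : a = 1 := by linarith
              subst e2 ha1
              simp only [zero_smul, one_smul, add_zero] at h ⊢
              exact hz' (by simpa using h)
            · exact (convex_convexHull ℝ (range q)) (hz' e1) (hw' e2) ha hb hab
      have hsub : convexHull ℝ (range p) ⊆ _ := convexHull_min (by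
        rintro _ ⟨i, rfl⟩
        refine ⟨h0 _ (subset_convexHull ℝ _ ⟨i, rfl⟩), fun hi => ?_⟩
        exact subset_convexHull ℝ _ ⟨⟨i, hi⟩, rfl⟩) hC
      have := (hsub hx1).2 (by simp)
      simpa using this
    · apply convexHull_min _ hK.1
      rintro _ ⟨i, rfl⟩
      refine (h1 _).1 ?_
      have := he i
      change Fin.snoc (α := fun _ => ℝ) (q i) 0 = p i at this
      rw [this]
      exact subset_convexHull ℝ _ ⟨i, rfl⟩
  have hint : affineSpan ℝ (range q) = ⊤ := by
    rw [← interior_convexHull_nonempty_iff_affineSpan_eq_top, ← hKe]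
    exact hK.2.2
  have hcard : Fintype.card I = n + 1 := by
    have := (hq.affineSpan_eq_top_iff_card_eq_finrank_add_one).1 hint
    simpa using this
  let f : Fin (n + 1) ≃ I := (Fintype.equivFinOfCardEq hcard).symm
  refine ⟨q ∘ f, hq.comp_embedding f.toEmbedding, ?_⟩
  rw [hKe, f.surjective.range_comp]

/-- the pyramid over `K` -/
theorem pyr_body {n : ℕ} {K : Set (Fin n → ℝ)} (hK : IsBody K) :
    IsBody (joinBody K (stdSimp 0)) := joinBody_body hK (std_body 0)

theorem pyr_simplex {n : ℕ} {K : Set (Fin n → ℝ)} (hK : IsBody K)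
    (h : IsSimplex (joinBody K (stdSimp 0))) : IsSimplex K := by
  refine base_simplex hK (J := joinBody K (stdSimp 0)) h (fun z hz => hz.1) (fun x => ?_)
  constructor
  · rintro ⟨-, -, ⟨y, hy, hy'⟩, -⟩
    have : x = y := by
      funext i
      have h1 := hy' i
      have h2 : (Fin.snoc (α := fun _ => ℝ) x 0 : Fin (n + 1) → ℝ) (Fin.castSucc i) = x i := by simp
      have h3 : (Fin.snoc (α := fun _ => ℝ) x 0 : Fin (n + 1) → ℝ) (Fin.last n) = 0 := by simp
      have h5 : (Fin.snoc (α := fun _ => ℝ) x 0 : Fin (n + 0 + 1) → ℝ) (Fin.last (n + 0)) = 0 := h3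
      rw [h5] at h1
      have h4 : x i = (1 - 0) * y i := h2.symm.trans h1
      simpa using h4
    rw [this]; exact hy
  · intro hx
    have h2 : ∀ i, (Fin.snoc (α := fun _ => ℝ) x 0 : Fin (n + 1) → ℝ) (Fin.castSucc i) = x i := by
      simp
    have h3 : (Fin.snoc (α := fun _ => ℝ) x 0 : Fin (n + 1) → ℝ) (Fin.last n) = 0 := by simp
    refine ⟨h3.symm.le, h3.le.trans zero_le_one, ⟨x, hx, fun i => ?_⟩, ⟨0, ?_, fun j => j.elim0⟩⟩
    · refine (h2 i).trans ?_
      have : (Fin.snoc (α := fun _ => ℝ) x 0 : Fin (n + 0 + 1) → ℝ) (Fin.last (n + 0)) = 0 := h3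
      rw [this]; ring
    · simp [stdSimp]

/-- (B) with the equality case -/
theorem partB' {n : ℕ} (hn : 0 < n)
    (h : ∀ K : Set (Fin (n + 1) → ℝ), IsBody K →
      isoConst K < isoConst (stdSimp (n + 1)) ∨ IsSimplex K)
    {K : Set (Fin n → ℝ)} (hK : IsBody K) : isoConst K < isoConst (stdSimp n) ∨ IsSimplex K := by
  rcases h (joinBody K (stdSimp 0)) (pyr_body hK) with h1 | h1
  · left
    have e := phi_join hK (std_body 0)
    rw [phi_eq hK, phi_eq (pyr_body hK), mul_zero, pow_zero, mul_one] at e
    rw [lt_iff_one hK hn (by simp)]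
    have h2 : Fk (joinBody K (stdSimp 0)) < s (n + 0 + 1) :=
      (lt_iff_one (pyr_body hK) (Nat.succ_pos _) (by simp)).1 h1
    have h3 : Fk (joinBody K (stdSimp 0)) / s (n + 0 + 1) < 1 := (div_lt_one (s_pos _)).2 h2
    rw [e] at h3
    exact (div_lt_one (s_pos _)).1 h3
  · exact Or.inr (pyr_simplex hK h1)

end Vale.Agent.P254j
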