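import Vale.Agent.P254j.Bridge
import Vale.Agent.P254.SimplexImage

open MeasureTheory Set
open scoped Pointwise

namespace Vale.Agent.P254j

open Vale.Agent.P254 (IsSimplex simplex)

theorem simplex_affine {n : ℕ} {S : Set (Fin n → ℝ)} (hS : IsSimplex S)
    (T : (Fin n → ℝ) ≃ᵃ[ℝ] (Fin n → ℝ)) : IsSimplex (T '' S) := by
  obtain ⟨p, hp, rfl⟩ := hS
  refine ⟨T ∘ p, ?_, ?_⟩
  · exact T.affineIndependent_iff.2 hp
  · have h := AffineMap.image_convexHull T.toAffineMap (Set.range p)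
    rw [AffineEquiv.coe_toAffineMap] at h
    rw [h, ← Set.range_comp]

theorem std_isSimplex (n : ℕ) : IsSimplex (simplex n) := by
  refine ⟨P254.SI.q n, ?_, P254.SI.simplex_eq n⟩
  rw [affineIndependent_iff_linearIndependent_vsub ℝ (P254.SI.q n) 0]
  have h1 := (Pi.basisFun ℝ (Fin n)).linearIndependent
  have h2 := h1.comp (fun i : {x : Fin (n + 1) // x ≠ 0} => i.1.pred i.2) (by
    intro i j h
    exact Subtype.ext (Fin.pred_inj.1 h))
  have e : (fun i : {x : Fin (n + 1) // x ≠ 0} =>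
      (P254.SI.q n i -ᵥ P254.SI.q n 0 : Fin n → ℝ)) =
      (Pi.basisFun ℝ (Fin n)) ∘ (fun i : {x : Fin (n + 1) // x ≠ 0} => i.1.pred i.2) := by
    ext i k
    obtain ⟨i, hi⟩ := i
    obtain ⟨j, rfl⟩ := Fin.exists_succ_eq.2 hi
    simp [P254.SI.q, Pi.single_apply]
  rw [e]
  exact h2

theorem scal {n : ℕ} {r : ℝ} (hr : 0 ≤ r) (a : Fin n → ℝ) :
    (∃ x ∈ simplex n, a = r • x) ↔ (∀ i, 0 ≤ a i) ∧ ∑ i, a i ≤ r := by
  constructor
  · rintro ⟨x, hx, rfl⟩
    refine ⟨fun i => mul_nonneg hr (hx.1 i), ?_⟩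
    simp only [Pi.smul_apply, smul_eq_mul, ← Finset.mul_sum]
    have := mul_le_mul_of_nonneg_left hx.2 hr
    linarith
  · rintro ⟨h1, h2⟩
    rcases eq_or_lt_of_le hr with h | h
    · refine ⟨0, ⟨by simp, by simp⟩, ?_⟩
      ext i
      have hs : ∑ i, a i = 0 := le_antisymm (by linarith) (Finset.sum_nonneg fun i _ => h1 i)
      have := (Finset.sum_eq_zero_iff_of_nonneg (fun i _ => h1 i)).1 hs i (Finset.mem_univ i)
      simp [this]
    · refine ⟨r⁻¹ • a, ⟨fun i => ?_, ?_⟩, ?_⟩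
      · exact mul_nonneg (inv_nonneg.2 hr) (h1 i)
      · simp only [Pi.smul_apply, smul_eq_mul]
        rw [← Finset.mul_sum, inv_mul_le_iff₀ h]
        linarith
      · rw [smul_smul, mul_inv_cancel₀ h.ne', one_smul]

variable {m n : ℕ}

/-- `(a, b, u) ↦ (a, b, u + ∑ b)` -/
def sh0 (m n : ℕ) :
    ((Fin m → ℝ) × ((Fin n → ℝ) × ℝ)) ≃ₗ[ℝ] ((Fin m → ℝ) × ((Fin n → ℝ) × ℝ)) where
  toFun w := (w.1, (w.2.1, w.2.2 + ∑ j, w.2.1 j))
  invFun w := (w.1, (w.2.1, w.2.2 - ∑ j, w.2.1 j))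
  map_add' w w' := by
    ext k
    · simp
    · simp
    · simp [Finset.sum_add_distrib]; ring
  map_smul' r w := by
    ext k
    · simp
    · simp
    · simp [← Finset.mul_sum]; ring
  left_inv w := by
    ext k <;> simp
  right_inv w := by
    ext k <;> simp

noncomputable def T0 (m n : ℕ) : (Fin (m + n + 1) → ℝ) ≃ᵃ[ℝ] (Fin (m + n + 1) → ℝ) :=
  (((G m n).trans (sh0 m n)).trans (G m n).symm).toAffineEquiv

theorem T0_G (z : Fin (m + n + 1) → ℝ) :
    G m n (T0 m n z) = ((G m n z).1, ((G m n z).2.1, (G m n z).2.2 + ∑ j, (G m n z).2.1 j)) := by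
  simp only [T0, LinearEquiv.coe_toAffineEquiv, LinearEquiv.trans_apply,
    LinearEquiv.apply_symm_apply]
  rfl

theorem mem_simplex_G (z : Fin (m + n + 1) → ℝ) :
    z ∈ simplex (m + n + 1) ↔ (∀ i, 0 ≤ (G m n z).1 i) ∧ (∀ j, 0 ≤ (G m n z).2.1 j) ∧
      0 ≤ (G m n z).2.2 ∧ ∑ i, (G m n z).1 i + ∑ j, (G m n z).2.1 j + (G m n z).2.2 ≤ 1 := by
  have hsum : ∑ k, z k = ∑ i, (G m n z).1 i + ∑ j, (G m n z).2.1 j + (G m n z).2.2 := by
    rw [Fin.sum_univ_castSucc, Fin.sum_univ_add]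
    rfl
  constructor
  · rintro ⟨h1, h2⟩
    refine ⟨fun i => h1 _, fun j => h1 _, h1 _, ?_⟩
    rw [← hsum]; exact h2
  · rintro ⟨h1, h2, h3, h4⟩
    refine ⟨fun k => ?_, by rw [hsum]; exact h4⟩
    refine Fin.lastCases h3 (fun k => ?_) k
    exact Fin.addCases (motive := fun k => 0 ≤ z (Fin.castSucc k)) (fun i => h1 i) (fun j => h2 j) k

theorem mem_join_simplex (z : Fin (m + n + 1) → ℝ) :
    z ∈ joinBody (simplex m) (simplex n) ↔
      ((∀ i, 0 ≤ (G m n z).1 i) ∧ ∑ i, (G m n z).1 i ≤ 1 - (G m n z).2.2) ∧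
      ((∀ j, 0 ≤ (G m n z).2.1 j) ∧ ∑ j, (G m n z).2.1 j ≤ (G m n z).2.2) := by
  rw [mem_joinBody]
  constructor
  · rintro ⟨h0, h1, h2, h3⟩
    exact ⟨(scal (by linarith) _).1 h2, (scal h0 _).1 h3⟩
  · rintro ⟨h1, h2⟩
    have e1 : 0 ≤ ∑ i, (G m n z).1 i := Finset.sum_nonneg fun i _ => h1.1 i
    have e2 : 0 ≤ ∑ j, (G m n z).2.1 j := Finset.sum_nonneg fun i _ => h2.1 i
    have f1 := h1.2
    have f2 := h2.2
    exact ⟨by linarith, by linarith, (scal (by linarith) _).2 h1, (scal (by linarith) _).2 h2⟩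

theorem T0_mem (z : Fin (m + n + 1) → ℝ) :
    T0 m n z ∈ joinBody (simplex m) (simplex n) ↔ z ∈ simplex (m + n + 1) := by
  rw [mem_join_simplex, mem_simplex_G, T0_G]
  simp only
  constructor
  · rintro ⟨⟨h1, h2⟩, h3, h4⟩
    exact ⟨h1, h3, by linarith, by linarith⟩
  · rintro ⟨h1, h2, h3, h4⟩
    exact ⟨⟨h1, by linarith⟩, h2, by linarith⟩

theorem join_simplex_simplex {S1 : Set (Fin m → ℝ)} {S2 : Set (Fin n → ℝ)} (h1 : IsSimplex S1)
    (h2 : IsSimplex S2) : IsSimplex (joinBody S1 S2) := by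
  obtain ⟨T1, rfl⟩ := P254.simplex_image h1
  obtain ⟨T2, rfl⟩ := P254.simplex_image h2
  rw [joinBody_image]
  apply simplex_affine
  have : joinBody (simplex m) (simplex n) = T0 m n '' simplex (m + n + 1) := by
    ext z
    constructor
    · intro h
      refine ⟨(T0 m n).symm z, ?_, by simp⟩
      rw [← T0_mem]
      simpa using h
    · rintro ⟨w, hw, rfl⟩
      exact (T0_mem w).2 hw
  rw [this]
  exact simplex_affine (std_isSimplex _) _

theorem simplex_isBody {n : ℕ} {S : Set (Fin n → ℝ)} (hS : IsSimplex S) : IsBody S := by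
  obtain ⟨T, rfl⟩ := P254.simplex_image hS
  have hb : IsBody (simplex n) := std_body n
  refine ⟨?_, ?_, ?_⟩
  · exact hb.1.affine_image T.toAffineMap
  · exact hb.2.1.image (AffineEquiv.continuous_of_finiteDimensional T)
  · have := T.toHomeomorphOfFiniteDimensional.image_interior (simplex n)
    obtain ⟨x, hx⟩ := hb.2.2
    refine ⟨T x, ?_⟩
    have h2 : T x ∈ T.toHomeomorphOfFiniteDimensional '' interior (simplex n) := ⟨x, hx, rfl⟩
    rw [this] at h2
    exact h2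

theorem body_affine {n : ℕ} {K : Set (Fin n → ℝ)} (hb : IsBody K)
    (T : (Fin n → ℝ) ≃ᵃ[ℝ] (Fin n → ℝ)) : IsBody (T '' K) := by
  refine ⟨?_, ?_, ?_⟩
  · exact hb.1.affine_image T.toAffineMap
  · exact hb.2.1.image (AffineEquiv.continuous_of_finiteDimensional T)
  · have := T.toHomeomorphOfFiniteDimensional.image_interior K
    obtain ⟨x, hx⟩ := hb.2.2
    refine ⟨T x, ?_⟩
    have h2 : T x ∈ T.toHomeomorphOfFiniteDimensional '' interior K := ⟨x, hx, rfl⟩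
    rw [this] at h2
    exact h2

theorem iso_simplex {n : ℕ} {S : Set (Fin n → ℝ)} (hS : IsSimplex S) :
    isoConst S = isoConst (stdSimp n) := by
  obtain ⟨T, rfl⟩ := P254.simplex_image hS
  exact iso_aff (std_body n) T

end Vale.Agent.P254j
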